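import Vale.Agent.P174.Tower.Main

/-!
The closure theorem for the conjecture and its consequences.
-/

namespace Vale.Agent.P174.Tower

open Monoid
open FreeGroup (invRev mk)

universe u

variable {G : Type u} [Group G] {n : ℕ}

/-- A letter as a signed symbol. -/
def toSym : Letter G (Fin n) → (G ⊕ Fin n) × Bool
  | Sum.inl g => (Sum.inl g, true)
  | Sum.inr (j, b) => (Sum.inr j, b)

lemma exprow_toSym (l : List (Letter G (Fin n))) (j : Fin n) :
    exprow (l.map toSym) j = rowL l j := by
  induction l with
  | nil => simp [exprow]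
  | cons a l ih =>
    rw [List.map_cons, rowL_cons, Pi.add_apply, ← ih]
    simp only [exprow, tot_cons, Finsupp.coe_add, Pi.add_apply, add_left_inj]
    rcases a with g | ⟨k, b⟩
    · simp [toSym, wt, unk]
    · by_cases hk : k = j
      · subst hk
        cases b <;> simp [toSym, wt, unk, rowL_inr]
      · cases b <;> simp [toSym, wt, unk, rowL_inr, hk, Finsupp.single_eq_of_ne (Ne.symm hk)]

/-- **Closure theorem.** If every nontrivial finitely generated subgroup either has a nonzero
homomorphism to the integers or satisfies the conjecture, then the group satisfies it. -/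
theorem conjecture_of_subgroups
    (hG : ∀ H : Subgroup G, H.FG → H ≠ ⊥ → (∃ χ : H →* Multiplicative ℤ, χ ≠ 1) ∨ Conjecture H) :
    Conjecture G := by
  classical
  intro m n w hw
  choose l hl using fun i => exists_word (w i)
  let K := Coprod G (FreeGroup (Fin n)) ⧸ Subgroup.normalClosure (Set.range w)
  let π : Coprod G (FreeGroup (Fin n)) →* K := QuotientGroup.mk' _
  have hπ : Coprod.lift (π.comp Coprod.inl) (FreeGroup.lift fun j => π (Coprod.inr (FreeGroup.of j)))
      = π := by
    refine Coprod.hom_ext (by simp) ?_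
    refine FreeGroup.ext_hom _ _ fun j => by simp
  refine ⟨K, inferInstance, π.comp Coprod.inl, fun j => π (Coprod.inr (FreeGroup.of j)), ?_,
    fun i => by
      rw [hπ]
      exact (QuotientGroup.eq_one_iff _).2 (Subgroup.subset_normalClosure ⟨i, rfl⟩)⟩
  rw [injective_iff_map_eq_one]
  intro g hg
  let W : Fin m → List ((G ⊕ Fin n) × Bool) := fun i => (l i).map toSym
  let valid : List (G × Bool) ⊕ Fin m → Prop := fun k => ∀ R, k = Sum.inl R → val id R = 1
  let S : Set (FreeGroup (G ⊕ Fin n)) := {z | ∃ k, valid k ∧ z = mk (body W k)}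
  let Q := FreeGroup (G ⊕ Fin n) ⧸ Subgroup.normalClosure S
  let q : FreeGroup (G ⊕ Fin n) →* Q := QuotientGroup.mk' _
  have hS : ∀ k, valid k → q (mk (body W k)) = 1 := fun k hk =>
    (QuotientGroup.eq_one_iff _).2 (Subgroup.subset_normalClosure ⟨k, hk, rfl⟩)
  let θ : G →* Q := MonoidHom.mk' (fun a => q (FreeGroup.of (Sum.inl a))) fun a b => by
    have h : valid (Sum.inl [(a, true), (b, true), (a * b, false)]) := by
      rintro R ⟨⟩
      simp [val_cons]
    have h' := hS _ h
    rw [show mk (body W (Sum.inl [(a, true), (b, true), (a * b, false)])) =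
      FreeGroup.of (Sum.inl a) * FreeGroup.of (Sum.inl b) * (FreeGroup.of (Sum.inl (a * b)))⁻¹ from
        rfl, map_mul, map_inv, mul_inv_eq_one, map_mul] at h'
    exact h'.symm
  let Λ : Coprod G (FreeGroup (Fin n)) →* Q :=
    Coprod.lift θ (FreeGroup.lift fun j => q (FreeGroup.of (Sum.inr j)))
  have hΛ : ∀ L : List (Letter G (Fin n)), Λ (word L) = q (mk (L.map toSym)) := by
    intro L
    rw [lift_word]
    induction L with
    | nil => exact (map_one q).symm
    | cons a L ih =>
      rw [ev_cons, ih, List.map_cons,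
        show mk (toSym a :: L.map toSym) = mk [toSym a] * mk (L.map toSym) by
          rw [FreeGroup.mul_mk]; rfl, map_mul]
      congr 1
      rcases a with a | ⟨j, b⟩
      · rfl
      · cases b
        · exact (map_inv q (FreeGroup.of (Sum.inr j))).symm
        · rfl
  have hker : Subgroup.normalClosure (Set.range w) ≤ Λ.ker := by
    refine Subgroup.normalClosure_le_normal ?_
    rintro _ ⟨i, rfl⟩
    rw [SetLike.mem_coe, MonoidHom.mem_ker, ← hl, hΛ]
    exact hS (Sum.inr i) (fun R hR => by simp at hR)
  have hg' : FreeGroup.of (Sum.inl g) ∈ Subgroup.normalClosure S := by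
    have := hker ((QuotientGroup.eq_one_iff _).1 hg)
    rw [MonoidHom.mem_ker] at this
    have : θ g = 1 := by simpa [Λ] using this
    exact (QuotientGroup.eq_one_iff _).1 this
  have key : ∀ z ∈ Subgroup.normalClosure S, ∃ P : List (Piece G (Fin n) (Fin m)),
      (∀ p ∈ P, valid p.2.2) ∧ z = mk (P.flatMap (flat W)) := by
    intro z hz
    induction hz using Subgroup.closure_induction with
    | mem x hx =>
      obtain ⟨y, ⟨k, hk, rfl⟩, hy⟩ := Group.mem_conjugatesOfSet_iff.1 hx
      obtain ⟨c, rfl⟩ := isConj_iff.1 hy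
      obtain ⟨v, rfl⟩ := Quot.exists_rep c
      refine ⟨[(v, true, k)], by simpa using hk, ?_⟩
      simp [flat, FreeGroup.quot_mk_eq_mk, FreeGroup.inv_mk, FreeGroup.mul_mk, List.append_assoc]
    | one => exact ⟨[], by simp, rfl⟩
    | mul x y _ _ hx hy =>
      obtain ⟨P, hP, rfl⟩ := hx
      obtain ⟨P', hP', rfl⟩ := hy
      refine ⟨P ++ P', fun p hp => (List.mem_append.1 hp).elim (hP p) (hP' p), ?_⟩
      rw [List.flatMap_append, FreeGroup.mul_mk]
    | inv x _ hx =>
      obtain ⟨P, hP, rfl⟩ := hx
      refine ⟨(P.map fun p => (p.1, !p.2.1, p.2.2)).reverse, fun p hp => ?_, ?_⟩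
      · obtain ⟨p', hp', rfl⟩ := List.mem_map.1 (List.mem_reverse.1 hp)
        exact hP p' hp'
      · clear hP
        rename_i hmem
        clear hmem
        induction P with
        | nil => rfl
        | cons p P ih =>
          rw [List.flatMap_cons, ← FreeGroup.mul_mk, mul_inv_rev, ih, List.map_cons,
            List.reverse_cons, List.flatMap_append, List.flatMap_singleton, ← FreeGroup.mul_mk,
            FreeGroup.inv_mk]
          congr 2
          rcases p with ⟨v, b, k⟩
          cases b <;> simp [flat, invRev, Function.comp_def]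
  obtain ⟨P, hP, hP'⟩ := key _ hg'
  have hW : LinearIndependent ℚ fun i => exprow (W i) := by
    refine LinearIndependent.of_comp (Finsupp.lcoeFun : (Fin n →₀ ℚ) →ₗ[ℚ] (Fin n → ℚ)) ?_
    have : (⇑(Finsupp.lcoeFun : (Fin n →₀ ℚ) →ₗ[ℚ] (Fin n → ℚ)) ∘ fun i => exprow (W i)) =
        fun i => row (w i) := by
      funext i j
      rw [← hl i]
      exact exprow_toSym (l i) j
    rw [this]
    exact hw
  have := val_eq_one hG id W hW [(g, true)] P (fun p hp R hR => hP p hp R hR) hP'
  simpa [val_cons] using this

/-- The conjecture passes to subgroups. -/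
lemma conjecture_of_injective {K : Type u} [Group K] (ι : K →* G) (hι : Function.Injective ι)
    (hG : Conjecture G) : Conjecture K := by
  intro m n w hw
  let T : Coprod K (FreeGroup (Fin n)) →* Coprod G (FreeGroup (Fin n)) :=
    Coprod.lift (Coprod.inl.comp ι) Coprod.inr
  have hexp : ∀ j, (expSum (G := G) j).comp T = expSum j := fun j =>
    Coprod.hom_ext (by ext; simp [T, expSum]) (FreeGroup.ext_hom _ _ fun k => by simp [T, expSum])
  have hns : Nonsingular fun i => T (w i) := by
    have : (fun i => row (T (w i))) = fun i => row (w i) := by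
      funext i j
      simp only [row]
      rw [← MonoidHom.comp_apply, hexp]
    unfold Nonsingular
    rw [this]
    exact hw
  obtain ⟨H, _, φ, h, hinj, hsol⟩ := hG m n _ hns
  refine ⟨H, inferInstance, φ.comp ι, h, hinj.comp hι, fun i => ?_⟩
  have e : (Coprod.lift φ (FreeGroup.lift h)).comp T =
      Coprod.lift (φ.comp ι) (FreeGroup.lift h) :=
    Coprod.hom_ext (by ext; simp [T]) (FreeGroup.ext_hom _ _ fun k => by simp [T])
  rw [← e]
  exact hsol i

/-- Extensions by groups whose nontrivial finitely generated subgroups map to the integers. -/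
theorem conjecture_of_extension (N : Subgroup G) [N.Normal] (hN : Conjecture N)
    (hQ : ∀ K : Subgroup (G ⧸ N), K.FG → K ≠ ⊥ → ∃ χ : K →* Multiplicative ℤ, χ ≠ 1) :
    Conjecture G := by
  refine conjecture_of_subgroups fun H hH hne => ?_
  by_cases himg : H.map (QuotientGroup.mk' N) = ⊥
  · refine Or.inr (conjecture_of_injective (Subgroup.inclusion ?_)
      (Subgroup.inclusion_injective _) hN)
    rwa [Subgroup.map_eq_bot_iff, QuotientGroup.ker_mk'] at himg
  · obtain ⟨χ, hχ⟩ := hQ _ (by obtain ⟨S, rfl, hS⟩ := (Subgroup.fg_iff H).1 hH; exact (Subgroup.fg_iff _).2 ⟨_, (MonoidHom.map_closure _ S).symm, hS.image _⟩) himg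
    refine Or.inl ⟨χ.comp ((QuotientGroup.mk' N).subgroupMap H), fun h => hχ ?_⟩
    ext y
    obtain ⟨x, rfl⟩ := (QuotientGroup.mk' N).subgroupMap_surjective H y
    exact congrArg _ (DFunLike.congr_fun h x)

/-- It is enough to prove the conjecture for finitely generated groups without nonzero
homomorphisms to the integers. -/
theorem conjecture_iff_fg_no_hom :
    (∀ (G : Type u) [Group G], Conjecture G) ↔
      ∀ (G : Type u) [Group G], Group.FG G → (∀ χ : G →* Multiplicative ℤ, χ = 1) →
        Conjecture G := by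
  refine ⟨fun h G _ _ _ => h G, fun h G _ => conjecture_of_subgroups fun H hH _ => ?_⟩
  by_cases hc : ∃ χ : H →* Multiplicative ℤ, χ ≠ 1
  · exact Or.inl hc
  · push Not at hc
    exact Or.inr (h H ((Group.fg_iff_subgroup_fg H).2 hH) hc)

end Vale.Agent.P174.Tower
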