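import Vale.Agent.P174.Tower.Rows

/-!
Witnesses that a system kills an element of its coefficient group, their lifts to a cyclic cover
and the removal of a coefficient symbol of trivial value.
-/

namespace Vale.Agent.P174.Tower

open FreeGroup (invRev mk)

universe u

variable {G : Type*} [Group G] {C X E : Type*}

/-- Value of a list of coefficient symbols. -/
def val (f : C → G) (L : List (C × Bool)) : G := FreeGroup.lift f (mk L)

@[simp] lemma val_nil (f : C → G) : val f [] = 1 := by simp [val]

lemma val_cons (f : C → G) (a : C × Bool) (L : List (C × Bool)) :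
    val f (a :: L) = (if a.2 then f a.1 else (f a.1)⁻¹) * val f L := by
  rcases a with ⟨c, b⟩
  cases b <;> simp [val, FreeGroup.lift_mk]

/-- Coefficient symbols among all symbols. -/
def emb (L : List (C × Bool)) : List ((C ⊕ X) × Bool) := L.map (Prod.map Sum.inl id)

/-- A piece of a witness: a conjugator, an orientation, and a relator of `G` or an equation. -/
abbrev Piece (C X E : Type*) := List ((C ⊕ X) × Bool) × Bool × (List (C × Bool) ⊕ E)

/-- The word of a relator or an equation. -/
def body (W : E → List ((C ⊕ X) × Bool)) : List (C × Bool) ⊕ E → List ((C ⊕ X) × Bool) :=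
  Sum.elim emb W

/-- The conjugate that a piece stands for. -/
def flat (W : E → List ((C ⊕ X) × Bool)) (π : Piece C X E) : List ((C ⊕ X) × Bool) :=
  π.1 ++ (if π.2.1 then body W π.2.2 else invRev (body W π.2.2)) ++ invRev π.1

/-- All letters of a witness. -/
def letters (W : E → List ((C ⊕ X) × Bool)) (u : List (C × Bool)) (P : List (Piece C X E)) :
    List ((C ⊕ X) × Bool) :=
  emb u ++ P.flatMap fun π => π.1 ++ body W π.2.2

section cover

variable (χ : C ⊕ X → ℤ)

lemma lft_append (q : ℤ) (L L' : List ((C ⊕ X) × Bool)) :
    lft χ q (L ++ L') = lft χ q L ++ lft χ (q + tot χ L) L' := by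
  simp [lft, up_append]

lemma lft_invRev (q : ℤ) (L : List ((C ⊕ X) × Bool)) :
    lft χ (q + tot χ L) (invRev L) = invRev (lft χ q L) := by
  simp only [lft, up_invRev]
  simp [invRev, List.map_reverse, Function.comp_def]

lemma mk_lft_congr {L L' : List ((C ⊕ X) × Bool)} (h : mk L = mk L') (q : ℤ) :
    mk (lft χ q L) = mk (lft χ q L') := by
  have h' := congrArg (FreeGroup.map (Equiv.sumProdDistrib C X ℤ)) (mk_up_congr χ h q)
  rw [FreeGroup.map.mk, FreeGroup.map.mk] at h'
  exact h'

lemma proj_lft (q : ℤ) (L : List ((C ⊕ X) × Bool)) :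
    (lft χ q L).map (Prod.map (Sum.map Prod.fst Prod.fst) id) = L := by
  conv_rhs => rw [← map_fst_up χ q L]
  rw [lft, List.map_map]
  refine List.map_congr_left fun a _ => ?_
  rcases a with ⟨⟨s, p⟩, b⟩
  rcases s with c | x <;> rfl

lemma lft_emb (q : ℤ) (R : List (C × Bool)) :
    lft χ q (emb R) = emb (up (fun c => χ (.inl c)) q R) := by
  induction R generalizing q with
  | nil => rfl
  | cons a R ih =>
    rcases a with ⟨c, b⟩
    cases b <;> simp [emb, lft, up] at ih ⊢ <;> exact ih _

/-- The lift of a relator or of an equation. -/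
def liftKind (q : ℤ) : List (C × Bool) ⊕ E → List ((C × ℤ) × Bool) ⊕ (E × ℤ) :=
  Sum.map (up (fun c => χ (.inl c)) q) (fun i => (i, q))

/-- The lift of a piece starting at level zero. -/
def liftPiece (π : Piece C X E) : Piece (C × ℤ) (X × ℤ) (E × ℤ) :=
  (lft χ 0 π.1, π.2.1, liftKind χ (tot χ π.1) π.2.2)

variable (W : E → List ((C ⊕ X) × Bool))

lemma body_liftKind (q : ℤ) (k : List (C × Bool) ⊕ E) :
    body (fun p : E × ℤ => lft χ p.2 (W p.1)) (liftKind χ q k) = lft χ q (body W k) := by
  rcases k with R | i
  · exact (lft_emb χ q R).symm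
  · rfl

lemma tot_flat {π : Piece C X E} (h : tot χ (body W π.2.2) = 0) : tot χ (flat W π) = 0 := by
  rcases π with ⟨v, b, k⟩
  cases b <;> simp_all [flat]

lemma lft_flat {π : Piece C X E} (h : tot χ (body W π.2.2) = 0) :
    lft χ 0 (flat W π) = flat (fun p : E × ℤ => lft χ p.2 (W p.1)) (liftPiece χ π) := by
  rcases π with ⟨v, b, k⟩
  simp only at h
  have e1 : lft χ (tot χ v) (invRev v) = invRev (lft χ 0 v) := by simpa using lft_invRev χ 0 v
  cases b
  · have e2 : lft χ (tot χ v) (invRev (body W k)) = invRev (lft χ (tot χ v) (body W k)) := by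
      simpa [h] using lft_invRev χ (tot χ v) (body W k)
    simp [flat, liftPiece, lft_append, body_liftKind, e1, e2, h]
  · simp [flat, liftPiece, lft_append, body_liftKind, e1, h]

lemma lft_flatMap {P : List (Piece C X E)} (h : ∀ π ∈ P, tot χ (body W π.2.2) = 0) :
    lft χ 0 (P.flatMap (flat W)) =
      (P.map (liftPiece χ)).flatMap (flat fun p : E × ℤ => lft χ p.2 (W p.1)) := by
  induction P with
  | nil => rfl
  | cons π P ih =>
    rw [List.flatMap_cons, lft_append, List.map_cons, List.flatMap_cons,
      tot_flat χ W (h π (by simp)), add_zero, lft_flat χ W (h π (by simp)),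
      ih fun π' hπ' => h π' (List.mem_cons_of_mem _ hπ')]

lemma proj_letters (u : List (C × Bool)) (P : List (Piece C X E)) :
    (letters (fun p : E × ℤ => lft χ p.2 (W p.1)) (up (fun c => χ (.inl c)) 0 u)
      (P.map (liftPiece χ))).map (Prod.map (Sum.map Prod.fst Prod.fst) id) = letters W u P := by
  simp only [letters, List.map_append, ← lft_emb, proj_lft]
  congr 1
  induction P with
  | nil => rfl
  | cons π P ih =>
    simp only [List.map_cons, List.flatMap_cons, List.map_append, ih]
    simp [liftPiece, body_liftKind, proj_lft]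

lemma val_up (f : C → G) (c : C → ℤ) (s : ℤ → G) (q : ℤ) (R : List (C × Bool)) :
    val (fun p : C × ℤ => (s p.2)⁻¹ * f p.1 * s (p.2 + c p.1)) (up c q R) =
      (s q)⁻¹ * val f R * s (q + tot c R) := by
  induction R generalizing q with
  | nil => simp [up]
  | cons a R ih =>
    rcases a with ⟨x, b⟩
    cases b <;> simp only [up, val_cons, ih, tot_cons, wt] <;>
      simp [mul_assoc, add_assoc, sub_eq_add_neg]

end cover

section erase

variable [DecidableEq C] [DecidableEq X] (a : C)

/-- Delete a coefficient symbol. -/
def dropC (L : List (C × Bool)) : List (C × Bool) := L.filter fun x => x.1 ≠ a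

/-- Delete a coefficient symbol among all symbols. -/
def dropS (L : List ((C ⊕ X) × Bool)) : List ((C ⊕ X) × Bool) :=
  L.filter fun x => x.1 ≠ Sum.inl a

/-- Delete a coefficient symbol in a piece. -/
def dropPiece (π : Piece C X E) : Piece C X E :=
  (dropS a π.1, π.2.1, Sum.map (dropC a) id π.2.2)

lemma dropS_emb (R : List (C × Bool)) : dropS (X := X) a (emb R) = emb (dropC a R) := by
  simp [dropS, dropC, emb, List.filter_map, Function.comp_def]

lemma dropS_append (L L' : List ((C ⊕ X) × Bool)) :
    dropS a (L ++ L') = dropS a L ++ dropS a L' := List.filter_append ..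

lemma dropS_invRev (L : List ((C ⊕ X) × Bool)) : dropS a (invRev L) = invRev (dropS a L) := by
  simp [dropS, invRev, List.filter_map, List.filter_reverse, Function.comp_def]

lemma val_dropC (f : C → G) (ha : f a = 1) (R : List (C × Bool)) :
    val f (dropC a R) = val f R := by
  induction R with
  | nil => rfl
  | cons x R ih =>
    rcases x with ⟨x, b⟩
    by_cases hx : x = a
    · subst hx
      rw [dropC, List.filter_cons_of_neg (by simp), ← dropC, ih]
      simp [val_cons, ha]
    · rw [dropC, List.filter_cons_of_pos (by simp [hx]), ← dropC, val_cons, val_cons, ih]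

lemma exprow_dropS (L : List ((C ⊕ X) × Bool)) : exprow (dropS a L) = exprow L := by
  induction L with
  | nil => rfl
  | cons x L ih =>
    rcases x with ⟨x, b⟩
    by_cases hx : x = Sum.inl a
    · subst hx
      rw [dropS, List.filter_cons_of_neg (by simp), ← dropS, ih]
      cases b <;> simp [exprow, unk, wt]
    · rw [dropS, List.filter_cons_of_pos (by simp [hx]), ← dropS]
      simp only [exprow, tot_cons] at ih ⊢
      rw [ih]

/-- The homomorphism deleting a coefficient symbol. -/
def kill : FreeGroup (C ⊕ X) →* FreeGroup (C ⊕ X) :=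
  FreeGroup.lift fun s => if s = Sum.inl a then 1 else FreeGroup.of s

lemma mk_dropS (L : List ((C ⊕ X) × Bool)) : mk (dropS a L) = kill a (mk L) := by
  induction L with
  | nil => exact (map_one _).symm
  | cons x L ih =>
    rcases x with ⟨x, b⟩
    rw [show (x, b) :: L = [(x, b)] ++ L from rfl, ← FreeGroup.mul_mk, map_mul, ← ih, dropS,
      List.filter_append, ← FreeGroup.mul_mk]
    congr 1
    by_cases hx : x = Sum.inl a
    · cases b <;> simp [kill, FreeGroup.lift_mk, hx, ← FreeGroup.one_eq_mk]
    · cases b <;> simp [kill, FreeGroup.lift_mk, hx, FreeGroup.of, FreeGroup.inv_mk, invRev]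

variable (W : E → List ((C ⊕ X) × Bool))

lemma body_drop (k : List (C × Bool) ⊕ E) :
    body (fun i => dropS a (W i)) (Sum.map (dropC a) id k) = dropS a (body W k) := by
  rcases k with R | i
  · exact (dropS_emb a R).symm
  · rfl

lemma flatMap_drop (P : List (Piece C X E)) :
    (P.map (dropPiece a)).flatMap (flat fun i => dropS a (W i)) =
      dropS a (P.flatMap (flat W)) := by
  induction P with
  | nil => rfl
  | cons π P ih =>
    rw [List.map_cons, List.flatMap_cons, List.flatMap_cons, ih, dropS_append]
    congr 1
    rcases π with ⟨v, b, k⟩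
    cases b <;> simp [flat, dropPiece, body_drop, dropS_append, dropS_invRev]

lemma letters_drop (u : List (C × Bool)) (P : List (Piece C X E)) :
    letters (fun i => dropS a (W i)) (dropC a u) (P.map (dropPiece a)) =
      dropS a (letters W u P) := by
  simp only [letters, dropS_append, dropS_emb]
  congr 1
  induction P with
  | nil => rfl
  | cons π P ih =>
    simp only [List.map_cons, List.flatMap_cons, dropS_append, ih]
    simp [dropPiece, body_drop]

end erase

end Vale.Agent.P174.Tower
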