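import Mathlib

/-!
Lists of signed symbols, their totals under a weight, and their lifts to a cyclic cover.
-/

namespace Vale.Agent.P174.Tower

open FreeGroup (invRev mk)

variable {S A : Type*}

section tot

variable [AddCommGroup A] (χ : S → A)

/-- The weight of a signed symbol. -/
def wt (a : S × Bool) : A := if a.2 then χ a.1 else -χ a.1

/-- The total weight of a list of signed symbols. -/
def tot (L : List (S × Bool)) : A := (L.map (wt χ)).sum

@[simp] lemma tot_nil : tot χ [] = 0 := rfl

@[simp] lemma tot_cons (a : S × Bool) (L : List (S × Bool)) :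
    tot χ (a :: L) = wt χ a + tot χ L := by simp [tot]

@[simp] lemma tot_append (L L' : List (S × Bool)) : tot χ (L ++ L') = tot χ L + tot χ L' := by
  simp [tot]

@[simp] lemma tot_invRev (L : List (S × Bool)) : tot χ (invRev L) = -tot χ L := by
  induction L with
  | nil => simp [invRev]
  | cons a L ih =>
    rw [show invRev (a :: L) = invRev L ++ [(a.1, !a.2)] by simp [invRev]]
    rcases a with ⟨s, b⟩
    cases b <;> simp [ih, wt]

lemma map_tot {B : Type*} [AddCommGroup B] (f : A →+ B) (L : List (S × Bool)) :
    f (tot χ L) = tot (fun s => f (χ s)) L := by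
  induction L with
  | nil => simp
  | cons a L ih => rcases a with ⟨s, b⟩; cases b <;> simp [ih, wt]

lemma tot_add (χ' : S → A) (L : List (S × Bool)) :
    tot (fun s => χ s + χ' s) L = tot χ L + tot χ' L := by
  induction L with
  | nil => simp
  | cons a L ih => rcases a with ⟨s, b⟩; cases b <;> simp [ih, wt] <;> abel

end tot

section cover

variable (χ : S → ℤ)

/-- The lift of a list of signed symbols to the cyclic cover, starting at level `q`: a symbol
carries the level at which it starts. -/
def up : ℤ → List (S × Bool) → List ((S × ℤ) × Bool)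
  | _, [] => []
  | q, (s, true) :: L => ((s, q), true) :: up (q + χ s) L
  | q, (s, false) :: L => ((s, q - χ s), false) :: up (q - χ s) L

lemma up_append (q : ℤ) (L L' : List (S × Bool)) :
    up χ q (L ++ L') = up χ q L ++ up χ (q + tot χ L) L' := by
  induction L generalizing q with
  | nil => simp [up]
  | cons a L ih =>
    rcases a with ⟨s, b⟩
    cases b <;> simp [up, ih, wt, add_assoc, sub_eq_add_neg]

lemma up_invRev (q : ℤ) (L : List (S × Bool)) :
    up χ (q + tot χ L) (invRev L) = invRev (up χ q L) := by
  induction L generalizing q with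
  | nil => simp [up, invRev]
  | cons a L ih =>
    rw [show invRev (a :: L) = invRev L ++ [(a.1, !a.2)] by simp [invRev]]
    rcases a with ⟨s, b⟩
    cases b
    · rw [up_append, tot_cons, show q + (wt χ (s, false) + tot χ L) = q - χ s + tot χ L by
        simp [wt]; ring, ih, tot_invRev, add_neg_cancel_right]
      simp [up, invRev]
    · rw [up_append, tot_cons, show q + (wt χ (s, true) + tot χ L) = q + χ s + tot χ L by
        simp [wt]; ring, ih, tot_invRev, add_neg_cancel_right]
      simp [up, invRev]

lemma map_fst_up (q : ℤ) (L : List (S × Bool)) :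
    (up χ q L).map (fun a => (a.1.1, a.2)) = L := by
  induction L generalizing q with
  | nil => rfl
  | cons a L ih => rcases a with ⟨s, b⟩; cases b <;> simp [up, ih]

lemma length_up (q : ℤ) (L : List (S × Bool)) : (up χ q L).length = L.length := by
  have := congrArg List.length (map_fst_up χ q L)
  simpa using this

lemma up_shift (q r : ℤ) (L : List (S × Bool)) :
    up χ (q + r) L = (up χ q L).map (fun a => ((a.1.1, a.1.2 + r), a.2)) := by
  induction L generalizing q with
  | nil => rfl
  | cons a L ih =>
    rcases a with ⟨s, b⟩
    cases b
    · simp [up, ← ih, show q + r - χ s = q - χ s + r by ring]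
    · simp [up, ← ih, show q + r + χ s = q + χ s + r by ring]

lemma mk_up_congr {L L' : List (S × Bool)} (h : mk L = mk L') (q : ℤ) :
    mk (up χ q L) = mk (up χ q L') := by
  refine congrArg (Quot.lift (fun L => mk (up χ q L)) ?_) h
  rintro _ _ ⟨⟩
  rename_i L₁ L₂ x b
  simp only [up_append]
  cases b <;> simp only [up, Bool.not_true, Bool.not_false, sub_add_cancel, add_sub_cancel_right]
  · exact Quot.sound FreeGroup.Red.Step.not
  · exact Quot.sound FreeGroup.Red.Step.not

end cover

end Vale.Agent.P174.Tower
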