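import Vale.Agent.P174.Basic
import Vale.Agent.P174.Tower.Gauge

/-!
If every nontrivial finitely generated subgroup either maps onto the integers or satisfies the
conjecture, then the group satisfies it.
-/

namespace Vale.Agent.P174.Tower

open Monoid
open FreeGroup (invRev mk)

universe u

variable {G : Type u} [Group G] {C : Type u} {X E : Type}

lemma val_subgroup {H : Subgroup G} {f : C → G} {g : C → H} (R : List (C × Bool))
    (h : ∀ a ∈ R, (g a.1 : G) = f a.1) : ((val g R : H) : G) = val f R := by
  induction R with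
  | nil => simp
  | cons a R ih =>
    rcases a with ⟨c, b⟩
    have hc := h _ List.mem_cons_self
    cases b <;> simp [val_cons, ih fun a ha => h a (List.mem_cons_of_mem _ ha), hc]

lemma lift_emb {H H' : Type*} [Group H] [Group H'] (φ : H →* H') (g : C → H) (ψ : C ⊕ X → H')
    (hψ : ∀ c, ψ (.inl c) = φ (g c)) (R : List (C × Bool)) :
    FreeGroup.lift ψ (mk (emb R)) = φ (val g R) := by
  induction R with
  | nil => simp [emb]
  | cons a R ih =>
    rcases a with ⟨c, b⟩
    simp only [emb, FreeGroup.lift_mk, List.map_cons, List.prod_cons] at ih ⊢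
    cases b <;> simp [val_cons, hψ, ← ih]

lemma tot_emb {H : Type*} [Group H] (χ : H →* Multiplicative ℤ) (g : C → H) (d : ℤ) (b : X → ℤ)
    (R : List (C × Bool)) :
    tot (Sum.elim (fun c => d * Multiplicative.toAdd (χ (g c))) b) (emb R) =
      d * Multiplicative.toAdd (χ (val g R)) := by
  induction R with
  | nil => simp [emb]
  | cons a R ih =>
    rcases a with ⟨c, β⟩
    simp only [emb] at ih ⊢
    cases β <;> simp [val_cons, ih, wt, mul_add]

lemma exprow_eq_zero {L : List ((C ⊕ X) × Bool)} {x : X} (h : ∀ a ∈ L, a.1 ≠ Sum.inr x) :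
    exprow L x = 0 := by
  induction L with
  | nil => simp [exprow]
  | cons a L ih =>
    rcases a with ⟨s, b⟩
    have hs := h _ List.mem_cons_self
    have := ih fun a ha => h a (List.mem_cons_of_mem _ ha)
    simp only [exprow] at this ⊢
    rw [tot_cons, Finsupp.add_apply, this, add_zero]
    rcases s with c | y
    · cases b <;> simp [wt, unk]
    · have hy : y ≠ x := fun e => hs (by rw [e])
      cases b <;> simp [wt, unk, Finsupp.single_eq_of_ne (Ne.symm hy)]

lemma tot_flatMap (w : C ⊕ X → ℤ) (W : E → List ((C ⊕ X) × Bool)) {P : List (Piece C X E)}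
    (h : ∀ π ∈ P, tot w (body W π.2.2) = 0) : tot w (P.flatMap (flat W)) = 0 := by
  induction P with
  | nil => rfl
  | cons π P ih =>
    rw [List.flatMap_cons, tot_append, tot_flat w W (h π (by simp)),
      ih fun π' h' => h π' (List.mem_cons_of_mem _ h'), add_zero]

/-- Over a group satisfying the conjecture, the used equations have a solution in an overgroup,
as a value for every symbol. -/
lemma exists_terminal {H : Type u} [Group H] (hH : Conjecture H) (g : C → H)
    (W : E → List ((C ⊕ X) × Bool)) (hW : LinearIndependent ℚ fun i => exprow (W i))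
    (EU : Finset E) :
    ∃ (H' : Type u) (_ : Group H') (φ : H →* H') (ψ : C ⊕ X → H'), Function.Injective φ ∧
      (∀ c, ψ (.inl c) = φ (g c)) ∧ ∀ i ∈ EU, FreeGroup.lift ψ (mk (W i)) = 1 := by
  classical
  set XU : Finset X := EU.biUnion fun i => ((W i).filterMap fun a => a.1.getRight?).toFinset
    with hXU
  let idx : X → Option (Fin XU.card) := fun x =>
    if h : x ∈ XU then some (XU.equivFin ⟨x, h⟩) else none
  let tr : (C ⊕ X) × Bool → Letter H (Fin XU.card) := fun a =>
    match a.1 with
    | .inl c => .inl (if a.2 then g c else (g c)⁻¹)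
    | .inr x => match idx x with
      | some j => .inr (j, a.2)
      | none => .inl 1
  have hrow : ∀ (L : List ((C ⊕ X) × Bool)) (j : Fin XU.card),
      rowL (L.map tr) j = exprow L (XU.equivFin.symm j).1 := by
    intro L j
    induction L with
    | nil => simp [exprow]
    | cons a L ih =>
      rcases a with ⟨s, b⟩
      rw [List.map_cons, rowL_cons, Pi.add_apply, ih]
      simp only [exprow, tot_cons, Finsupp.coe_add, Pi.add_apply, add_left_inj]
      rcases s with c | x
      · cases b <;> simp [tr, wt, unk]
      · by_cases hx : x ∈ XU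
        · have : (tr (Sum.inr x, b)) = Sum.inr (XU.equivFin ⟨x, hx⟩, b) := by simp [tr, idx, hx]
          rw [this, rowL_inr]
          by_cases hj : XU.equivFin ⟨x, hx⟩ = j
          · subst hj
            cases b <;> simp [wt, unk]
          · have hne : (XU.equivFin.symm j).1 ≠ x := fun e =>
              hj (by rw [show (⟨x, hx⟩ : XU) = XU.equivFin.symm j from Subtype.ext e.symm,
                Equiv.apply_symm_apply])
            cases b <;> simp [wt, unk, hj, Finsupp.single_eq_of_ne hne]
        · have hne : (XU.equivFin.symm j).1 ≠ x := fun e => hx (e ▸ (XU.equivFin.symm j).2)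
          cases b <;> simp [tr, idx, hx, wt, unk, Finsupp.single_eq_of_ne hne]
  let e := EU.equivFin
  let l : Fin EU.card → List (Letter H (Fin XU.card)) := fun k => (W (e.symm k).1).map tr
  have hns : Nonsingular fun k => word (l k) := by
    show LinearIndependent ℚ fun k => rowL (l k)
    rw [Fintype.linearIndependent_iff]
    intro r hr
    have hW' : LinearIndependent ℚ fun k => exprow (W (e.symm k).1) :=
      hW.comp (fun k => (e.symm k).1) (Subtype.val_injective.comp e.symm.injective)
    refine Fintype.linearIndependent_iff.1 hW' r (Finsupp.ext fun x => ?_)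
    simp only [Finsupp.finsetSum_apply, Finsupp.smul_apply, Finsupp.zero_apply]
    by_cases hx : x ∈ XU
    · have := congrFun hr (XU.equivFin ⟨x, hx⟩)
      simpa [Finset.sum_apply, l, hrow] using this
    · refine Finset.sum_eq_zero fun k _ => ?_
      rw [exprow_eq_zero, smul_zero]
      intro a ha e'
      refine hx (Finset.mem_biUnion.2 ⟨_, (e.symm k).2, ?_⟩)
      simp only [List.mem_toFinset, List.mem_filterMap]
      exact ⟨a, ha, by rw [e']; rfl⟩
  obtain ⟨H', _, φ, h, hinj, hsol⟩ := hH _ _ _ hns
  refine ⟨H', inferInstance, φ,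
    Sum.elim (fun c => φ (g c)) (fun x => (idx x).elim 1 h), hinj, fun c => rfl, fun i hi => ?_⟩
  have hk := hsol (e ⟨i, hi⟩)
  rw [lift_word] at hk
  simp only [l, Equiv.symm_apply_apply] at hk
  refine Eq.trans ?_ hk
  generalize W i = L
  induction L with
  | nil => simp
  | cons a L ih =>
    rw [List.map_cons, ev_cons, ← ih]
    rcases a with ⟨s, b⟩
    simp only [FreeGroup.lift_mk, List.map_cons, List.prod_cons]
    congr 1
    rcases s with c | x
    · cases b <;> simp [tr, letterVal]
    · cases hj : idx x <;> cases b <;> simp [tr, hj, letterVal]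

/-- A witness cannot kill a nontrivial element. -/
theorem val_eq_one
    (hG : ∀ H : Subgroup G, H.FG → H ≠ ⊥ → (∃ χ : H →* Multiplicative ℤ, χ ≠ 1) ∨ Conjecture H)
    (f : C → G) (W : E → List ((C ⊕ X) × Bool))
    (hW : LinearIndependent ℚ fun i => exprow (W i))
    (u : List (C × Bool)) (P : List (Piece C X E))
    (hR : ∀ π ∈ P, ∀ R, π.2.2 = Sum.inl R → val f R = 1)
    (heq : mk (emb u) = mk (P.flatMap (flat W))) : val f u = 1 := by
  classical
  generalize hN : (letters W u P).length = N
  induction N using Nat.strong_induction_on generalizing C X E with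
  | _ N ih =>
  subst hN
  set U : Set C := {c | ∃ b, (Sum.inl c, b) ∈ letters W u P} with hU
  have hUf : U.Finite := by
    refine (((List.finite_toSet ((letters W u P).map Prod.fst))).preimage
      Sum.inl_injective.injOn).subset fun c ⟨b, hb⟩ => ?_
    exact List.mem_map.2 ⟨_, hb, rfl⟩
  set H := Subgroup.closure (f '' U) with hH
  let g : C → H := fun c =>
    if h : c ∈ U then ⟨f c, Subgroup.subset_closure ⟨c, h, rfl⟩⟩ else 1
  have hg : ∀ c ∈ U, (g c : G) = f c := fun c hc => by simp [g, hc]
  have hmemu : ∀ a ∈ u, a.1 ∈ U := fun a ha =>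
    ⟨a.2, List.mem_append_left _ (List.mem_map.2 ⟨a, ha, rfl⟩)⟩
  have hmemP : ∀ π ∈ P, ∀ a ∈ body W π.2.2, a ∈ letters W u P := fun π hπ a ha =>
    List.mem_append_right _ (List.mem_flatMap.2 ⟨π, hπ, List.mem_append_right _ ha⟩)
  have hu : ((val g u : H) : G) = val f u := val_subgroup u fun a ha => hg _ (hmemu a ha)
  have hRg : ∀ π ∈ P, ∀ R, π.2.2 = Sum.inl R → val g R = 1 := fun π hπ R hR' => by
    refine Subtype.ext ((val_subgroup R fun a ha => hg _ ⟨a.2, hmemP π hπ _ ?_⟩).trans
      (hR π hπ R hR'))
    rw [hR']
    exact List.mem_map.2 ⟨a, ha, rfl⟩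
  set EU : Finset E := (P.filterMap fun π => π.2.2.getRight?).toFinset with hEU
  have hmemEU : ∀ π ∈ P, ∀ i, π.2.2 = Sum.inr i → i ∈ EU := fun π hπ i hi => by
    rw [hEU, List.mem_toFinset, List.mem_filterMap]
    exact ⟨π, hπ, by rw [hi]; rfl⟩
  by_cases hbot : H = ⊥
  · rw [← hu]
    exact Subgroup.mem_bot.1 (hbot ▸ (val g u).2)
  rcases hG H ((Subgroup.fg_iff H).2 ⟨_, rfl, hUf.image f⟩) hbot with ⟨χ, hχ⟩ | hC
  · -- lift to the cyclic cover and gauge one coefficient to one
    obtain ⟨d, b, hd, htot⟩ :=
      exists_extend_weight W hW EU (fun c => Multiplicative.toAdd (χ (g c)))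
    set w : C ⊕ X → ℤ := Sum.elim (fun c => d * Multiplicative.toAdd (χ (g c))) b with hw
    have hbody : ∀ π ∈ P, tot w (body W π.2.2) = 0 := by
      intro π hπ
      rcases hk : π.2.2 with R | i
      · show tot w (emb R) = 0
        rw [hw, tot_emb, hRg π hπ R hk]
        simp
      · exact htot i (hmemEU π hπ i hk)
    obtain ⟨a, haU, ha⟩ : ∃ a ∈ U, χ (g a) ≠ 1 := by
      by_contra hcon
      push Not at hcon
      refine hχ (MonoidHom.ext fun y => ?_)
      obtain ⟨y, hy⟩ := y
      induction hy using Subgroup.closure_induction with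
      | mem x hx =>
        obtain ⟨c, hc, rfl⟩ := hx
        have := hcon c hc
        simp only [g, dif_pos hc] at this
        exact this
      | one => exact map_one χ
      | mul x y hx hy hx' hy' =>
        rw [MonoidHom.one_apply] at hx' hy' ⊢
        rw [show (⟨x * y, _⟩ : H) = ⟨x, hx⟩ * ⟨y, hy⟩ from rfl, map_mul, hx', hy', one_mul]
      | inv x hx hx' =>
        rw [MonoidHom.one_apply] at hx' ⊢
        rw [show (⟨x⁻¹, _⟩ : H) = (⟨x, hx⟩ : H)⁻¹ from rfl, map_inv, hx', inv_one]
    set W₁ : E × ℤ → List (((C × ℤ) ⊕ (X × ℤ)) × Bool) := fun p => lft w p.2 (W p.1) with hW₁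
    set u₁ := up (fun c => w (.inl c)) 0 u with hu₁
    set P₁ := P.map (liftPiece w) with hP₁
    obtain ⟨β, hβ⟩ := haU
    rw [← proj_letters w W u P] at hβ
    obtain ⟨⟨s₀, β'⟩, hmem, hproj⟩ := List.mem_map.1 hβ
    obtain ⟨q₀, rfl⟩ : ∃ q₀, s₀ = Sum.inl (a, q₀) := by
      rcases s₀ with ⟨c, q⟩ | x
      · simp only [Prod.map_apply, Sum.map_inl, Prod.mk.injEq, Sum.inl.injEq] at hproj
        exact ⟨q, by rw [hproj.1]⟩
      · simp at hproj
    let s : ℤ → G := fun q => if q = q₀ + w (.inl a) then (f a)⁻¹ else 1
    let f₁ : C × ℤ → G := fun p => (s p.2)⁻¹ * f p.1 * s (p.2 + w (.inl p.1))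
    have hwa : w (.inl a) ≠ 0 := mul_ne_zero hd (by simpa using ha)
    have hf₁ : f₁ (a, q₀) = 1 := by
      simp [f₁, s, hwa]
    have hu₂ := ih _ (by
        rw [letters_drop (a, q₀) W₁ u₁ P₁]
        have hlen : (letters W u P).length = (letters W₁ u₁ P₁).length := by
          rw [← proj_letters w W u P, List.length_map]
        rw [hlen]
        exact List.length_filter_lt_length_iff_exists.2 ⟨_, hmem, by simp⟩)
      f₁ (fun p => dropS (a, q₀) (W₁ p))
      (by
        simp only [exprow_dropS]
        exact linearIndependent_lft w W hW)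
      (dropC (a, q₀) u₁) (P₁.map (dropPiece (a, q₀)))
      (by
        intro π₂ hπ₂ R₂ hR₂
        simp only [hP₁, List.map_map, List.mem_map] at hπ₂
        obtain ⟨π, hπ, rfl⟩ := hπ₂
        rcases hk : π.2.2 with R | i
        · simp only [Function.comp_apply, dropPiece, liftPiece, liftKind, hk, Sum.map_inl,
            Sum.inl.injEq] at hR₂
          have h0 : tot (fun c => w (.inl c)) R = 0 := by
            have := hbody π hπ
            rw [hk] at this
            simp only [body, Sum.elim_inl, emb, tot_map] at this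
            exact this
          rw [← hR₂, val_dropC _ _ hf₁, val_up f (fun c => w (.inl c)) s, h0, add_zero,
            hR π hπ R hk, mul_one, inv_mul_cancel]
        · simp [dropPiece, liftPiece, liftKind, hk] at hR₂)
      (by
        rw [flatMap_drop, ← dropS_emb, mk_dropS, mk_dropS, hu₁, hP₁, hW₁, ← lft_emb,
          ← lft_flatMap w W hbody, mk_lft_congr w heq 0])
      rfl
    rw [val_dropC _ _ hf₁, hu₁, val_up f (fun c => w (.inl c)) s, zero_add] at hu₂
    by_contra hne
    have htu : tot (fun c => w (.inl c)) u = 0 := by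
      have h1 : tot w (emb u) = tot w (P.flatMap (flat W)) := by
        have := congrArg (fun z => Multiplicative.toAdd
          (FreeGroup.lift (fun s => Multiplicative.ofAdd (w s)) z)) heq
        have hl : ∀ L, Multiplicative.toAdd
            (FreeGroup.lift (fun s => Multiplicative.ofAdd (w s)) (mk L)) = tot w L := by
          intro L
          induction L with
          | nil => simp
          | cons x L ihL =>
            rcases x with ⟨x, β⟩
            simp only [FreeGroup.lift_mk, List.map_cons, List.prod_cons] at ihL ⊢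
            cases β <;> simp [ihL, wt]
        simpa only [hl] using this
      have h2 : tot w (P.flatMap (flat W)) = 0 := by
        exact tot_flatMap w W hbody
      rw [h2] at h1
      simp only [emb, tot_map] at h1
      exact h1
    rw [htu, mul_assoc, inv_mul_eq_one] at hu₂
    exact hne (by simpa using (eq_mul_inv_iff_mul_eq.2 hu₂.symm))
  · -- the conjecture over the coefficients that occur
    obtain ⟨H', _, φ, ψ, hinj, hψ, hsol⟩ := exists_terminal hC g W hW EU
    have h1 : FreeGroup.lift ψ (mk (P.flatMap (flat W))) = 1 := by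
      have : ∀ π ∈ P, FreeGroup.lift ψ (mk (flat W π)) = 1 := by
        intro π hπ
        have hb : FreeGroup.lift ψ (mk (body W π.2.2)) = 1 := by
          rcases hk : π.2.2 with R | i
          · show FreeGroup.lift ψ (mk (emb R)) = 1
            rw [lift_emb φ g ψ hψ, hRg π hπ R hk, map_one]
          · exact hsol i (hmemEU π hπ i hk)
        rw [flat, ← FreeGroup.mul_mk, ← FreeGroup.mul_mk, map_mul, map_mul, ← FreeGroup.inv_mk,
          map_inv]
        split_ifs
        · rw [hb, mul_one, mul_inv_cancel]
        · rw [← FreeGroup.inv_mk, map_inv, hb, inv_one, mul_one, mul_inv_cancel]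
      clear * - this
      induction P with
      | nil => simp
      | cons π P ihP =>
        rw [List.flatMap_cons, ← FreeGroup.mul_mk, map_mul, this π (by simp),
          ihP fun π' h' => this π' (List.mem_cons_of_mem _ h'), one_mul]
    rw [← heq, lift_emb φ g ψ hψ] at h1
    rw [← hu, hinj (h1.trans (map_one φ).symm), OneMemClass.coe_one]

end Vale.Agent.P174.Tower
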