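import Vale.Agent.P174.Tower.Lift

/-!
Exponent rows of lifted equations: extension of a map to the integers to the unknowns, and
independence of the rows of all lifts.
-/

namespace Vale.Agent.P174.Tower

open Finset

variable {C X : Type*}

lemma tot_map {S T A : Type*} [AddCommGroup A] (χ : T → A) (f : S → T) (L : List (S × Bool)) :
    tot χ (L.map (Prod.map f id)) = tot (χ ∘ f) L := by
  induction L with
  | nil => rfl
  | cons a L ih => rcases a with ⟨s, b⟩; cases b <;> simp [ih, wt]

lemma tot_sum {S A ι : Type*} [AddCommGroup A] (F : Finset ι) (g : ι → S → A)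
    (L : List (S × Bool)) :
    tot (fun s => ∑ i ∈ F, g i s) L = ∑ i ∈ F, tot (g i) L := by
  classical
  induction F using Finset.induction_on with
  | empty =>
    induction L with
    | nil => simp
    | cons a L ih =>
      rcases a with ⟨s, b⟩
      simp only [Finset.sum_empty] at ih ⊢
      cases b <;> simp [ih, wt]
  | insert i F hi ih =>
    simp only [Finset.sum_insert hi]
    rw [tot_add, ih]

/-- The weight giving the exponent sum of each unknown. -/
noncomputable def unk : C ⊕ X → X →₀ ℚ := Sum.elim 0 (fun x => Finsupp.single x 1)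

/-- The exponent row of a list. -/
noncomputable def exprow (L : List ((C ⊕ X) × Bool)) : X →₀ ℚ := tot unk L

lemma tot_eq_linearCombination (p : X → ℚ) (L : List ((C ⊕ X) × Bool)) :
    Finsupp.linearCombination ℚ p (exprow L) = tot (Sum.elim 0 p) L := by
  rw [exprow, ← LinearMap.toAddMonoidHom_coe, map_tot]
  congr 1
  funext s
  rcases s with c | x <;> simp [unk]

/-- An integral map on the coefficients extends, up to a factor, to the unknowns so that the
given equations have total weight zero. -/
lemma exists_extend_weight {E : Type*} (W : E → List ((C ⊕ X) × Bool))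
    (hW : LinearIndependent ℚ fun i => exprow (W i)) (E₀ : Finset E) (c : C → ℤ) :
    ∃ (d : ℤ) (b : X → ℤ), d ≠ 0 ∧
      ∀ i ∈ E₀, tot (Sum.elim (fun a => d * c a) b) (W i) = 0 := by
  classical
  obtain ⟨g, hg⟩ := LinearMap.exists_leftInverse_of_injective _ (linearIndependent_iff_ker.1 hW)
  set φ : (X →₀ ℚ) →ₗ[ℚ] ℚ := (Finsupp.linearCombination ℚ
    fun i => -tot (Sum.elim (fun a => (c a : ℚ)) (0 : X → ℚ)) (W i)).comp g with hφ
  set p : X → ℚ := fun x => φ (Finsupp.single x 1) with hp
  have hφp : ∀ v, φ v = Finsupp.linearCombination ℚ p v := fun v => by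
    induction v using Finsupp.induction_linear with
    | zero => simp
    | add u v hu hv => simp [hu, hv]
    | single x r => rw [show Finsupp.single x r = r • Finsupp.single x 1 by simp, map_smul]; simp [hp]
  have hpi : ∀ i, Finsupp.linearCombination ℚ p (exprow (W i)) =
      -tot (Sum.elim (fun a => (c a : ℚ)) (0 : X → ℚ)) (W i) := fun i => by
    have := LinearMap.congr_fun hg (Finsupp.single i 1)
    simp only [LinearMap.comp_apply, Finsupp.linearCombination_single, one_smul,
      LinearMap.id_apply] at this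
    rw [← hφp, hφ, LinearMap.comp_apply, this]
    simp
  set F : Finset X := E₀.biUnion fun i => (exprow (W i)).support with hF
  set d : ℤ := ∏ x ∈ F, ((p x).den : ℤ) with hd
  have hint : ∀ x ∈ F, ∃ z : ℤ, (z : ℚ) = (d : ℚ) * p x := by
    intro x hx
    obtain ⟨e, he⟩ := Finset.dvd_prod_of_mem (fun x => ((p x).den : ℤ)) hx
    refine ⟨e * (p x).num, ?_⟩
    simp only [← hd] at he
    rw [he]
    push_cast
    rw [← Rat.mul_den_eq_num (p x)]
    ring
  choose! b hb using hint
  refine ⟨d, b, Finset.prod_ne_zero_iff.2 fun x _ => by exact_mod_cast (p x).den_ne_zero, ?_⟩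
  intro i hi
  have hsplit : ((tot (Sum.elim (fun a => d * c a) b) (W i) : ℤ) : ℚ) =
      tot (Sum.elim 0 (fun x => (b x : ℚ))) (W i) +
        (d : ℚ) * tot (Sum.elim (fun a => (c a : ℚ)) (0 : X → ℚ)) (W i) := by
    have e1 := map_tot (Sum.elim (fun a => d * c a) b) (Int.castAddHom ℚ) (W i)
    have e2 := map_tot (Sum.elim (fun a => (c a : ℚ)) (0 : X → ℚ)) (AddMonoidHom.mulLeft (d : ℚ))
      (W i)
    simp only [Int.coe_castAddHom, AddMonoidHom.coe_mulLeft] at e1 e2
    rw [e1, e2, ← tot_add]
    congr 1
    funext s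
    rcases s with a | x <;> simp
  have hb' : Finsupp.linearCombination ℚ (fun x => (b x : ℚ)) (exprow (W i)) =
      (d : ℚ) * Finsupp.linearCombination ℚ p (exprow (W i)) := by
    rw [Finsupp.linearCombination_apply, Finsupp.linearCombination_apply, Finsupp.mul_sum]
    refine Finsupp.sum_congr fun x hx => ?_
    rw [hb x (Finset.mem_biUnion.2 ⟨i, hi, hx⟩), smul_eq_mul, smul_eq_mul]
    ring
  rw [← tot_eq_linearCombination, hb', hpi] at hsplit
  have : ((tot (Sum.elim (fun a => d * c a) b) (W i) : ℤ) : ℚ) = 0 := by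
    rw [hsplit]; ring
  exact_mod_cast this

/-- The lift of an equation to the cyclic cover. -/
def lft (χ : C ⊕ X → ℤ) (q : ℤ) (L : List ((C ⊕ X) × Bool)) :
    List (((C × ℤ) ⊕ (X × ℤ)) × Bool) :=
  (up χ q L).map (Prod.map (Equiv.sumProdDistrib C X ℤ) id)

/-- The moments of the rows on the cover. -/
noncomputable def moment {Y : Type*} (k : ℕ) : (Y × ℤ →₀ ℚ) →ₗ[ℚ] (Y →₀ ℚ) :=
  Finsupp.linearCombination ℚ fun p => Finsupp.single p.1 ((p.2 : ℚ) ^ k)

lemma moment_exprow_lft (χ : C ⊕ X → ℤ) (k : ℕ) (q : ℤ) (L : List ((C ⊕ X) × Bool)) :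
    moment k (exprow (lft χ q L)) =
      ∑ l ∈ range (k + 1), (((q : ℚ) ^ (k - l)) * (k.choose l : ℚ)) •
        tot (fun a : (C ⊕ X) × ℤ => (a.2 : ℚ) ^ l • unk a.1) (up χ 0 L) := by
  have h1 : moment k (exprow (lft χ q L)) =
      tot (fun a : (C ⊕ X) × ℤ => (a.2 : ℚ) ^ k • unk a.1) (up χ q L) := by
    rw [exprow, ← LinearMap.toAddMonoidHom_coe, map_tot, lft, tot_map]
    congr 1
    funext ⟨s, b⟩
    rcases s with c | x <;> simp [unk, moment, Equiv.sumProdDistrib]
  have h2 : ∀ l, (((q : ℚ) ^ (k - l)) * (k.choose l : ℚ)) •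
        tot (fun a : (C ⊕ X) × ℤ => (a.2 : ℚ) ^ l • unk a.1) (up χ 0 L) =
      tot (fun a : (C ⊕ X) × ℤ => (((q : ℚ) ^ (k - l)) * (k.choose l : ℚ)) •
        ((a.2 : ℚ) ^ l • unk a.1)) (up χ 0 L) := fun l =>
    map_tot _ (DistribSMul.toAddMonoidHom (X →₀ ℚ) _) _
  rw [h1, Finset.sum_congr rfl (fun l _ => h2 l), ← tot_sum]
  have h3 : up χ q L = (up χ 0 L).map (Prod.map (fun a => (a.1, a.2 + q)) id) := by
    have := up_shift χ 0 q L
    rwa [zero_add] at this
  rw [h3, tot_map]
  congr 1
  funext ⟨s, b⟩
  simp only [Function.comp_apply, smul_smul, ← Finset.sum_smul]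
  congr 1
  push_cast
  rw [add_pow]
  exact Finset.sum_congr rfl fun l _ => by ring

lemma eq_zero_of_moment {Y : Type*} (c : Y × ℤ →₀ ℚ) (h : ∀ k, moment k c = 0) : c = 0 := by
  classical
  ext ⟨i, a⟩
  by_contra hne
  set T : Finset ℤ := (c.support.image Prod.snd).erase a with hT
  set P : Polynomial ℚ := ∏ b ∈ T, (Polynomial.X - Polynomial.C (b : ℚ)) with hP
  have key : ∀ (P : Polynomial ℚ) (c : Y × ℤ →₀ ℚ),
      Finsupp.linearCombination ℚ (fun p : Y × ℤ => Finsupp.single p.1 (P.eval (p.2 : ℚ))) c =
      ∑ k ∈ range (P.natDegree + 1), P.coeff k • moment k c := by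
    intro P c
    induction c using Finsupp.induction_linear with
    | zero => simp
    | add u v hu hv => simp [hu, hv, Finset.sum_add_distrib]
    | single p r =>
      simp only [moment, Finsupp.linearCombination_single, Finsupp.smul_single, smul_eq_mul]
      rw [← Finsupp.single_finsetSum]
      congr 1
      rw [Polynomial.eval_eq_sum_range, Finset.mul_sum]
      exact Finset.sum_congr rfl fun k _ => by ring
  have hev : Finsupp.linearCombination ℚ (fun p : Y × ℤ => Finsupp.single p.1 (P.eval (p.2 : ℚ))) c i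
      = c (i, a) * P.eval (a : ℚ) := by
    rw [Finsupp.linearCombination_apply, Finsupp.sum, Finsupp.finsetSum_apply,
      Finset.sum_eq_single (i, a)]
    · simp
    · rintro ⟨j, b⟩ hmem hjb
      by_cases hji : j = i
      · subst hji
        have hb : b ∈ T := Finset.mem_erase.2
          ⟨fun e => hjb (by rw [e]), Finset.mem_image.2 ⟨_, hmem, rfl⟩⟩
        simp [hP, Polynomial.eval_prod, Finset.prod_eq_zero hb]
      · simp [Finsupp.single_eq_of_ne (Ne.symm hji)]
    · intro hn
      simp [Finsupp.notMem_support_iff.1 hn]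
  rw [key P c] at hev
  simp only [h, smul_zero, Finset.sum_const_zero, Finsupp.zero_apply] at hev
  rcases mul_eq_zero.1 hev.symm with h0 | h0
  · exact hne h0
  · rw [hP, Polynomial.eval_prod, Finset.prod_eq_zero_iff] at h0
    obtain ⟨b, hb, hb'⟩ := h0
    have : b = a := by
      simp only [Polynomial.eval_sub, Polynomial.eval_X, Polynomial.eval_C, sub_eq_zero] at hb'
      exact_mod_cast hb'.symm
    exact (Finset.mem_erase.1 hb).1 this

/-- All lifts of equations with independent rows have independent rows. -/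
lemma linearIndependent_lft {E : Type*} (χ : C ⊕ X → ℤ) (W : E → List ((C ⊕ X) × Bool))
    (hW : LinearIndependent ℚ fun i => exprow (W i)) :
    LinearIndependent ℚ fun p : E × ℤ => exprow (lft χ p.2 (W p.1)) := by
  rw [linearIndependent_iff] at hW ⊢
  intro c hc
  have key : ∀ (k : ℕ) (c : E × ℤ →₀ ℚ),
      moment k (Finsupp.linearCombination ℚ (fun p : E × ℤ => exprow (lft χ p.2 (W p.1))) c) =
      ∑ l ∈ range (k + 1), (k.choose l : ℚ) • Finsupp.linearCombination ℚ
        (fun i => tot (fun a : (C ⊕ X) × ℤ => (a.2 : ℚ) ^ l • unk a.1) (up χ 0 (W i)))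
        (moment (k - l) c) := by
    intro k c
    induction c using Finsupp.induction_linear with
    | zero => simp
    | add u v hu hv => simp [hu, hv, Finset.sum_add_distrib]
    | single p r =>
      rw [Finsupp.linearCombination_single, map_smul, moment_exprow_lft, Finset.smul_sum]
      refine Finset.sum_congr rfl fun l _ => ?_
      simp only [moment, Finsupp.linearCombination_single, Finsupp.smul_single, smul_eq_mul,
        smul_smul]
      congr 1
      ring
  refine eq_zero_of_moment c fun k => ?_
  induction k using Nat.strong_induction_on with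
  | _ k ih =>
    refine hW _ ?_
    have h := key k c
    rw [hc, map_zero, Finset.sum_range_succ', Finset.sum_eq_zero (fun l hl => by
      rw [ih (k - (l + 1)) (by have := Finset.mem_range.1 hl; omega), map_zero, smul_zero])] at h
    simp only [zero_add, Nat.choose_zero_right, Nat.cast_one, one_smul, Nat.sub_zero, pow_zero]
      at h
    have hD : ∀ i, tot (fun a : (C ⊕ X) × ℤ => unk a.1) (up χ 0 (W i)) = exprow (W i) := fun i => by
      conv_rhs => rw [exprow, ← map_fst_up χ 0 (W i)]
      exact (tot_map unk Prod.fst (up χ 0 (W i))).symm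
    simp only [hD] at h
    exact h.symm

end Vale.Agent.P174.Tower
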